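import Vale.Agent.P199.H128.K6

/-- `D` is algebraic over the central subfield `k`, generated as a unital `k`-algebra by the two
elements `x` and `y`, and infinite-dimensional over `k`. -/
def Vale.Agent.Results.P199.EveryCountableField.Counterexample (k D : Type) [Field k]
    [DivisionRing D] [Algebra k D] (x y : D) : Prop :=
  (∀ a : D, IsAlgebraic k a) ∧ Algebra.adjoin k {x, y} = ⊤ ∧ ¬ FiniteDimensional k D

/-- Kurosh's problem for division rings has a negative answer, over arbitrarily given ground
fields of characteristic different from two. (1) There is a division ring `D`, algebraic over its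
center, generated over its center by two elements `x, y` and infinite-dimensional over its center;
the same holds over a central subfield. (2) Such a `D` exists in every characteristic different
from two and with center containing any given countable field `k₀` of characteristic different
from two: there are a countable extension field `F` of `k₀` and a division ring `D` with `F`
central in `D` which is a counterexample over `F` and over its center, and in which the degree over
`F` of every element is a power of two. -/
theorem Vale.Agent.Results.P199.EveryCountableField.result :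
    (∃ (k D : Type) (_ : Field k) (_ : CharZero k) (_ : Countable k) (_ : DivisionRing D)
      (_ : Algebra k D) (x y : D),
      Counterexample k D x y ∧ Counterexample (Subring.center D) D x y) ∧
    (∀ (k₀ : Type) [Field k₀] [Countable k₀], (2 : k₀) ≠ 0 →
      ∃ (F D : Type) (_ : Field F) (_ : Countable F) (_ : Algebra k₀ F) (_ : DivisionRing D)
        (_ : Algebra F D) (x y : D),
        Counterexample F D x y ∧ Counterexample (Subring.center D) D x y ∧
          ∀ a : D, ∃ m : ℕ, (minpoly F a).natDegree = 2 ^ m) := by
  have main : ∀ (k₀ : Type) [Field k₀] [Countable k₀], (2 : k₀) ≠ 0 →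
      ∃ (F D : Type) (_ : Field F) (_ : Countable F) (_ : Algebra k₀ F) (_ : DivisionRing D)
        (_ : Algebra F D) (x y : D),
        Counterexample F D x y ∧ Counterexample (Subring.center D) D x y ∧
          ∀ a : D, ∃ m : ℕ, (minpoly F a).natDegree = 2 ^ m := by
    intro k₀ _ _ h2
    obtain ⟨F, D, i1, i2, i3, i4, i5, x, y, h1, h2, h3, h4⟩ := P199K.kurosh_every k₀ h2
    exact ⟨F, D, i1, i2, i3, i4, i5, x, y, ⟨h1, h2, h3⟩,
      P199H.not_finite_center' h1 {x, y} (Set.toFinite _) h2 h3, h4⟩
  refine ⟨?_, main⟩
  obtain ⟨F, D, i1, i2, i3, i4, i5, x, y, h1, h2, -⟩ := main ℚ two_ne_zero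
  have hF : CharZero F := charZero_of_injective_algebraMap (algebraMap ℚ F).injective
  exact ⟨F, D, i1, hF, i2, i4, i5, x, y, h1, h2⟩
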