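import Vale.Agent.P199.H615.Diag

/-- `D` is algebraic over the central subfield `k`, generated as a unital `k`-algebra by the two
elements `x` and `y`, and infinite-dimensional over `k`. -/
def Vale.Agent.Results.P199.NoCountableUniversal.Counterexample (k D : Type) [Field k]
    [DivisionRing D] [Algebra k D] (x y : D) : Prop :=
  (∀ a : D, IsAlgebraic k a) ∧ Algebra.adjoin k {x, y} = ⊤ ∧ ¬ FiniteDimensional k D

/-- Kurosh's problem for division rings has a negative answer, and there is no countable list of
all counterexamples. (1) There is a division ring `D`, algebraic over its center, generated over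
its center by two elements `x, y` and infinite-dimensional over its center; the same holds over a
central subfield. (2) Let `k₀` be a countable field of characteristic different from two, let
`w 0, w 1, …` be any noncommutative polynomials in two variables over `k₀` and let `A 0, A 1, …`
be any countable rings. Then there are a countable field `F` containing `k₀` and a counterexample
`D` over `F`, generated by `x, y`, such that `w j` evaluated at `x, y` has degree at most
`8 * 4 ^ j` over `F` for all `j`, all degrees over `F` are powers of two, there is an `F`-linear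
trace on `D` with value one at one, and `D` is not isomorphic to a subring of any of the rings
`A n`. -/
theorem Vale.Agent.Results.P199.NoCountableUniversal.result :
    (∃ (k D : Type) (_ : Field k) (_ : CharZero k) (_ : Countable k) (_ : DivisionRing D)
      (_ : Algebra k D) (x y : D),
      Counterexample k D x y ∧ Counterexample (Subring.center D) D x y) ∧
    (∀ (k₀ : Type) [Field k₀] [Countable k₀], (2 : k₀) ≠ 0 →
      ∀ (w : ℕ → FreeAlgebra k₀ (Fin 2)) (A : ℕ → Type) [∀ n, Ring (A n)]
        [∀ n, Countable (A n)],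
      ∃ (F D : Type) (_ : Field F) (_ : Countable F) (_ : DivisionRing D) (_ : Algebra k₀ F)
        (_ : Algebra F D) (_ : Algebra k₀ D) (_ : IsScalarTower k₀ F D) (x y : D),
        Counterexample F D x y ∧ Counterexample (Subring.center D) D x y ∧
        (∀ j, (minpoly F (FreeAlgebra.lift k₀ ![x, y] (w j))).natDegree ≤ 8 * 4 ^ j) ∧
        (∀ a : D, ∃ m : ℕ, (minpoly F a).natDegree = 2 ^ m) ∧
        (∃ T : D →ₗ[F] F, T 1 = 1 ∧ ∀ a b, T (a * b) = T (b * a)) ∧
        ∀ (n : ℕ) (f : D →+* A n), ¬ Function.Injective f) := by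
  have main : ∀ (k₀ : Type) [Field k₀] [Countable k₀], (2 : k₀) ≠ 0 →
      ∀ (w : ℕ → FreeAlgebra k₀ (Fin 2)) (A : ℕ → Type) [∀ n, Ring (A n)]
        [∀ n, Countable (A n)],
      ∃ (F D : Type) (_ : Field F) (_ : Countable F) (_ : DivisionRing D) (_ : Algebra k₀ F)
        (_ : Algebra F D) (_ : Algebra k₀ D) (_ : IsScalarTower k₀ F D) (x y : D),
        Counterexample F D x y ∧ Counterexample (Subring.center D) D x y ∧
        (∀ j, (minpoly F (FreeAlgebra.lift k₀ ![x, y] (w j))).natDegree ≤ 8 * 4 ^ j) ∧
        (∀ a : D, ∃ m : ℕ, (minpoly F a).natDegree = 2 ^ m) ∧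
        (∃ T : D →ₗ[F] F, T 1 = 1 ∧ ∀ a b, T (a * b) = T (b * a)) ∧
        ∀ (n : ℕ) (f : D →+* A n), ¬ Function.Injective f := by
    intro k₀ _ _ h2 w A _ _
    obtain ⟨F, D, i1, i2, i3, i4, i5, i6, i7, x, y, T, h1, h3, h4, h5, h6, h7, h8, h9⟩ :=
      P199U.universal h2 w A
    exact ⟨F, D, i1, i2, i3, i4, i5, i6, i7, x, y, ⟨h1, h3, h4⟩,
      P199H.not_finite_center' h1 {x, y} (Set.toFinite _) h3 h4, h8, h5, ⟨T, h6, h7⟩, h9⟩
  refine ⟨?_, main⟩
  obtain ⟨F, D, i1, i2, i3, i4, i5, i6, i7, x, y, h1, h2, -⟩ :=
    main ℚ two_ne_zero (fun _ => 0) (fun _ => ℚ)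
  have hF : CharZero F := charZero_of_injective_algebraMap (algebraMap ℚ F).injective
  exact ⟨F, D, i1, hF, i2, i3, i5, x, y, h1, h2⟩
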